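import Vale.Agent.P314.Main

namespace Vale.Agent.Results.P314.Full

open Vale.Agent.P314

/-- For every field `F` and every binary coding `enc` of its elements there is a deterministic
polynomial time Turing machine that, given `n` and `s` in unary, prints a hitting set for the
noncommutative polynomials computed by formulas of size at most `s` in `n` variables. -/
theorem result (F : Type) [Field F] (enc : F → List Bool) :
    ∃ H : (p : ℕ × ℕ) → List (Tuple F p.1),
      Nonempty (Turing.TM2ComputableInPolyTime encodeInput id fun p => encodeSet enc (H p)) ∧
      ∀ n s, IsHittingSet n s (H (n, s)) :=
  main F enc

end Vale.Agent.Results.P314.Full
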